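import Vale.Agent.P352X.R.G2.Rs
import Vale.Agent.P352X.R.GRP
import Vale.Agent.P352X.Api1
import Vale.Agent.P352X.Api3a
import Vale.Agent.P352X.Api4

/-!
# P352X, row G2: frames and the form of the commutator with `K` (helper24)
-/

set_option linter.all false

noncomputable section

open Filter Topology
open scoped SchwartzMap ContDiff ComplexConjugate

namespace Vale.Agent.P352X.G2

open Vale.Agent.P352 Vale.Agent.P352.GF Vale.Agent.P352.BW Vale.Agent.P352.H496
open Vale.Agent.P352.H246 (In Al Gen linv isLor_linv bar_bar)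
open UniformSpace (Completion)
open Complex (I)

/-! ### test functions -/

lemma in_iff {W : Set V} {f : Fn} : In W f ↔ Dc f ∧ tsupport f ⊆ W := by
  refine ⟨fun ⟨⟨g, hg⟩, h2, h3⟩ => ⟨⟨hg ▸ g.smooth ⊤, h2⟩, h3⟩, fun ⟨h1, h2⟩ => ⟨?_, h1.2, h2⟩⟩
  exact ⟨h1.2.toSchwartzMap h1.1, rfl⟩

lemma In.mono' {W W' : Set V} {f : Fn} (h : In W f) (hW : W ⊆ W') : In W' f :=
  ⟨h.1, h.2.1, h.2.2.trans hW⟩

lemma pd_eq {f : Fn} (hf : GF.IsTest f) (m : Ix) (x : V) : pd m f x = fderiv ℝ f x (bas m 1) := by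
  obtain ⟨g, rfl⟩ := hf
  rw [Grp.pd_ev]
  exact SchwartzMap.lineDerivOp_apply_eq_fderiv _ _ _

lemma dv_eq {f : Fn} (hf : GF.IsTest f) (h x : V) : dv h f x = fderiv ℝ f x h := by
  have e : h = ∑ m, h m • bas m 1 := by
    funext n
    simp [bas, Finset.sum_apply]
  conv_rhs => rw [e, map_sum]
  exact Finset.sum_congr rfl fun m _ => by rw [pd_eq hf, map_smul, Complex.real_smul]

lemma dv_bas (m : Ix) (f : Fn) : dv (bas m 1) f = pd m f := by
  funext x
  simp [dv, bas, apply_ite (fun t : ℝ => (t : ℂ))]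

lemma bar_dv {f : Fn} (hf : GF.IsTest f) (h : V) : dv h (bar f) = bar (dv h f) := by
  funext x
  simp only [dv, ← H755.bar_pd hf]
  simp [bar, dv]

lemma dv_lin (s t : ℝ) (h k : V) (f : Fn) :
    dv (s • h + t • k) f = fun x => s * dv h f x + t * dv k f x := by
  funext x
  simp only [dv, Finset.mul_sum, ← Finset.sum_add_distrib, Pi.add_apply, Pi.smul_apply,
    smul_eq_mul]
  exact Finset.sum_congr rfl fun m _ => by push_cast; ring

lemma Kc_eq {f : Fn} (hf : GF.IsTest f) (d : ℝ) : Kc d f = fun z =>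
    -fderiv ℝ f z (H15.cK va z) + ((2 * d - 8) * be z : ℝ) * f z := by
  funext z
  rw [← dv_eq hf]
  rfl

lemma in_Kc {W : Set V} {f : Fn} (hf : In W f) (d : ℝ) : In W (Kc d f) := by
  obtain ⟨h1, h2⟩ := in_iff.1 hf
  have h3 : ContDiff ℝ ∞ (H15.cK va) := by
    unfold H15.cK
    fun_prop
  rw [Kc_eq hf.1]
  refine in_iff.2 ⟨Api4.dc_add (Api4.dc_neg (Api4.dc_fderiv h1 h3)) (Api4.dc_mul_left
    (Complex.ofRealCLM.contDiff.comp (contDiff_const.mul smooth_be)) h1), ?_⟩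
  refine (tsupport_add _ _).trans (Set.union_subset ?_ ((tsupport_mul_subset_right).trans h2))
  exact (tsupport_neg _).subset.trans ((Api4.tsupport_fderiv_subset f _).trans h2)

lemma bar_Kc {f : Fn} (hf : GF.IsTest f) (d : ℝ) : Kc d (bar f) = bar (Kc d f) := by
  funext x
  simp only [Kc, ← H755.bar_pd hf]
  simp [bar, Kc, map_ofNat]

lemma sim_aff (L : Ix → V) (y : V) : ∃ A : V →L[ℝ] V, ∀ x, sim 1 L y x = A x + y ∧
    A x = sim 1 L 0 x :=
  ⟨LinearMap.toContinuousLinearMap ⟨⟨sim 1 L 0, H755.simL_add L⟩, fun t x => H755.simL_smul L t x⟩,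
    fun x => ⟨HM.sim_at 1 L y x, rfl⟩⟩

lemma cont_sim (L : Ix → V) (y : V) : Continuous (sim 1 L y) := by
  obtain ⟨A, hA⟩ := sim_aff L y
  rw [funext fun x => (hA x).1]
  fun_prop

lemma dv_sim {f : Fn} (hf : GF.IsTest f) {L : Ix → V} (hL : IsLor L) (y h : V) :
    dv h (fun x => f (sim 1 L y x)) = fun x => dv (sim 1 L 0 h) f (sim 1 L y x) := by
  funext x
  rw [dv_eq (Grp.test_sim one_pos hL y hf), dv_eq hf]
  obtain ⟨A, hA⟩ := sim_aff L y
  obtain ⟨g, rfl⟩ := hf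
  have h1 : HasFDerivAt (sim 1 L y) A x := by
    rw [funext fun x => (hA x).1]
    exact A.hasFDerivAt.add_const y
  have h2 : HasFDerivAt (ev g) (fderiv ℝ (ev g) (sim 1 L y x)) (sim 1 L y x) :=
    (g.differentiableAt).hasFDerivAt
  rw [← (hA h).2]
  exact congrFun (congrArg DFunLike.coe (h2.comp x h1).fderiv) h

/-- pairs of mutually inverse Poincare maps -/
structure Inv (L : Ix → V) (y : V) (L' : Ix → V) (y' : V) : Prop where
  lor : IsLor L
  lor' : IsLor L'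
  ri : ∀ x, sim 1 L y (sim 1 L' y' x) = x
  li : ∀ x, sim 1 L' y' (sim 1 L y x) = x

lemma Inv.symm {L L' : Ix → V} {y y' : V} (h : Inv L y L' y') : Inv L' y' L y :=
  ⟨h.lor', h.lor, h.li, h.ri⟩

lemma ex_inv {L : Ix → V} (hL : IsLor L) (y : V) : ∃ L' y', Inv L y L' y' := by
  refine ⟨linv L, -sim 1 (linv L) 0 y, hL, isLor_linv hL, fun x => ?_, fun x => ?_⟩
  · simpa only [inv_one] using ue_sim one_pos hL y x
  · rw [HM.sim_at 1 L, HM.sim_at, H755.simL_add, linv_sim _ hL]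
    abel

lemma Inv.in_comp {L L' : Ix → V} {y y' : V} (h : Inv L y L' y') {R : Set V} {g : Fn}
    (hg : In R g) : In (sim 1 L y ⁻¹' R) fun x => g (sim 1 L y x) := by
  let e : V ≃ₜ V := ⟨⟨sim 1 L y, sim 1 L' y', h.li, h.ri⟩, cont_sim _ _, cont_sim _ _⟩
  refine ⟨Grp.test_sim one_pos h.lor y hg.1, hg.2.1.comp_homeomorph e, ?_⟩
  exact (tsupport_comp_subset_preimage g (cont_sim L y)).trans (Set.preimage_mono hg.2.2)

lemma Inv.img {L L' : Ix → V} {y y' : V} (h : Inv L y L' y') (R : Set V) :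
    sim 1 L y '' R = sim 1 L' y' ⁻¹' R :=
  congrFun (Set.image_eq_preimage_of_inverse h.li h.ri) R

variable {D : Type*} [NormedAddCommGroup D] [InnerProductSpace ℂ D] {c : Ctx D}

lemma Inv.star {L L' : Ix → V} {y y' : V} (h : Inv L y L' y') :
    star (Ug c.Q 1 L y) = Ug c.Q 1 L' y' :=
  (Grp.uni_of (Grp.ug_inner one_pos h.lor y) (((Grp.im_ug c.Q one_pos h.lor y).mul c.hN.toRep
    (Grp.im_ug c.Q one_pos h.lor' y')).ext (Grp.im_one c.Q) h.ri)).2

/-! ### the trace -/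

lemma al_congr {Q : Theory D} {W : Set V} {X X' Y' : D → D} (h : Al Q W X X')
    (e : ∀ v w, inner ℂ (X v) w = inner ℂ v (Y' w)) : Al Q W X Y' := by
  rwa [← show X' = Y' from funext fun w => ext_inner_left ℂ fun v => by rw [← h.adj, e]]

lemma th_adj {f : Fn} (hf : GF.IsTest f) (v w : D) :
    inner ℂ (c.Thf f v) w = inner ℂ v (c.Thf (bar f) w) := by
  simp only [Ctx.Thf, GF.tr, sum_inner, inner_sum, inner_smul_left, inner_smul_right,
    Complex.conj_ofReal, c.hT.herm _ _ f v w hf]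

lemma al_th {W : Set V} {g : Fn} (hg : In W g) : Al c.Q W (c.Thf g) (c.Thf (bar g)) := by
  have h : ∀ m, Al c.Q W (fun v => (eta m : ℂ) • c.T m m g v) _ := fun m => Al.smul _ _ _
    (Al.fld _ _ g _ _ (c.Q.bose_fld _ (c.hT.bose m m)) (c.Q.bose_fld _ (c.hT.bose m m))
      (c.hT.herm m m) hg Al.one)
  have h1 := Al.add _ _ _ _ (Al.add _ _ _ _ (Al.add _ _ _ _ (h 0) (h 1)) (h 2)) (h 3)
  have e : c.Thf g = fun v => (eta 0 : ℂ) • c.T 0 0 g v + (eta 1 : ℂ) • c.T 1 1 g v +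
      (eta 2 : ℂ) • c.T 2 2 g v + (eta 3 : ℂ) • c.T 3 3 g v :=
    funext fun v => Fin.sum_univ_four fun m => (eta m : ℂ) • c.T m m g v
  rw [← e] at h1
  exact al_congr h1 (th_adj hg.1)

lemma th_comm {W : Set V} {X X' : D → D} (hX : Al c.Q W X X') {g : Fn} (hg : In Set.univ g)
    (hs : ∀ f, In W f → Sep g f) (v : D) : X (c.Thf g v) = c.Thf g (X v) := by
  have h := al_th (c := c) hg
  induction hX with
  | one => rfl
  | add X X' Y Y' _ _ h1 h2 => rw [h.map_add, ← h1, ← h2]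
  | smul a X X' _ h1 => rw [h.map_smul, ← h1]
  | fld A B f X X' hA hB hadj hf hX ih =>
    have h1 := Al.fld A B f _ _ hA hB hadj hf Al.one
    show A f (X (c.Thf g v)) = c.Thf g (A f (X v))
    rw [ih]
    simp only [Ctx.Thf, GF.tr, Fin.sum_univ_four]
    simp only [fun m => c.Q.loc _ A g f (X v) (c.hT.bose m m) hA hg.1 hf.1 (hs f hf)]
    rw [← h1.map_smul, ← h1.map_smul, ← h1.map_smul, ← h1.map_smul, ← h1.map_add, ← h1.map_add,
      ← h1.map_add]

lemma gen_al {Q : Theory D} {W : Set V} {X X' : D → D} (hX : Al Q W X X') {v : D}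
    (hv : Gen Q W v) : Gen Q W (X v) := by
  obtain ⟨Y, Y', hY, rfl⟩ := hv
  exact ⟨_, _, hX.mul hY, rfl⟩

lemma gen_mono {Q : Theory D} {W W' : Set V} (h : W ⊆ W') {v : D} (hv : Gen Q W v) :
    Gen Q W' v := by
  obtain ⟨Y, Y', hY, rfl⟩ := hv
  exact ⟨_, _, hY.mono h, rfl⟩

/-! ### frames -/

/-- a one parameter group that acts geometrically on the trace, up to the gradient of the
potential in the direction `h` -/
structure Fr (c : Ctx D) (h : V) (R R' : Set V) (S : ℝ → Completion D →L[ℂ] Completion D)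
    (κ : Fn → Fn) : Prop where
  ug : UG S
  vac : ∀ t, S t c.Om = c.Om
  geo : ∀ᶠ t in 𝓝 (0 : ℝ), ∀ Y ∈ (c.N R').commutant, S (-t) * Y * S t ∈ (c.N R).commutant
  dom : ∀ P P', T.Afs (c.N R) P P' → Dm S (P c.Q.vac : D)
  kap : ∀ g, In R g → In R (κ g) ∧ κ (bar g) = bar (κ g)
  th : ∀ g, In R g → Gn S (c.Th g) (-I • (c.Th (κ g) - (12 : ℂ) • c.l (dv h g)))

/-- the form of `Θ(κ g) - i [K, Θ(g)]` -/
def Lam (c : Ctx D) (S : ℝ → Completion D →L[ℂ] Completion D) (κ : Fn → Fn) (g : Fn) (ψ v : D) :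
    ℂ :=
  inner ℂ ((c.Thf (bar (κ g)) ψ : D) : Completion D) (v : Completion D) +
    inner ℂ (I • gen S (ψ : Completion D)) ((c.Thf g v : D) : Completion D) -
    inner ℂ (I • gen S ((c.Thf (bar g) ψ : D) : Completion D)) (v : Completion D)

lemma cl_Lam (S : ℝ → Completion D →L[ℂ] Completion D) (κ : Fn → Fn) {g : Fn}
    (hg : In Set.univ g) (ψ : D) : Cl c.Q (Lam c S κ g ψ) :=
  ((Cl.inner c.hN.toRep _).sum ((Cl.inner c.hN.toRep _).comp (al_th hg))).sub
    (Cl.inner c.hN.toRep _)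

namespace Fr

variable {h : V} {R R' : Set V} {S : ℝ → Completion D →L[ℂ] Completion D} {κ : Fn → Fn}
  (F : Fr c h R R' S κ) (G : GRP c)
include F G

lemma dm {ψ : D} (hψ : Gen c.Q R ψ) : Dm S (ψ : Completion D) := by
  obtain ⟨P, P', hP, rfl⟩ := hψ
  exact F.dom P P' (G.affa R P P' hP)

lemma herm {g : Fn} (hg : In R g) {ψ v : D} (hψ : Gen c.Q R ψ) (hv : Gen c.Q R v) :
    Lam c S κ g ψ v = conj (Lam c S κ (bar g) v ψ) := by
  have h1 := F.ug.symm (F.dm G hψ).gn (F.dm G (gen_al (al_th hg) hv)).gn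
  have h2 := F.ug.symm (F.dm G (gen_al (al_th hg.bar) hψ)).gn (F.dm G hv).gn
  simp only [Lam, (F.kap g hg).2, bar_bar, map_sub, map_add, inner_conj_symm, inner_smul_left,
    inner_smul_right, Complex.conj_I, map_mul, map_neg]
  rw [h1, h2, Completion.inner_coe, Completion.inner_coe,
    th_adj (H246.isTest_bar (F.kap g hg).1.1), bar_bar]
  ring

lemma key {g : Fn} (hg : In R g) {ψ : D} (hψ : Gen c.Q R ψ) {X X' : D → D}
    (hX : T.Afs (c.N R').commutant X X')
    (hc : ∀ f, In R f → X (c.Thf f c.Q.vac) = c.Thf f (X c.Q.vac)) :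
    Lam c S κ g ψ (X c.Q.vac) = 12 * inner ℂ ((X' ψ : D) : Completion D) (c.l (dv h g)) := by
  obtain ⟨Y, hY, h1, h2, -, -⟩ := tr_afs hX
  have d1 := (F.dm G hψ).gn
  have d2 := (F.dm G (gen_al (al_th hg.bar) hψ)).gn
  have d3 := F.th g hg
  have e : ∀ n, inner ℂ (I • gen S ((c.Thf (bar g) ψ : D) : Completion D)) (Y n c.Om) =
      inner ℂ (star (Y n) ψ) (c.Th (κ g) - (12 : ℂ) • c.l (dv h g)) +
        inner ℂ (I • gen S (ψ : Completion D)) (Y n (c.Th g)) := by
    intro n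
    have a1 := HasDerivAt.inner ℂ d2 (hasDerivAt_const (0 : ℝ) (Y n c.Om))
    have a2 := HasDerivAt.inner ℂ d1
      (((Y n).restrictScalars ℝ).hasFDerivAt.comp_hasDerivAt (0 : ℝ) d3)
    have a3 : (fun t => inner ℂ (S t ((c.Thf (bar g) ψ : D) : Completion D)) (Y n c.Om)) =ᶠ[𝓝 0]
        fun t => inner ℂ (S t (ψ : Completion D)) (Y n (S t (c.Th g))) := by
      filter_upwards [F.geo] with t ht
      have := (G.affh R g hg).2 _ (ht _ (hY n)) c.Q.vac ψ
      simp only [ContinuousLinearMap.mul_apply] at this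
      rw [← F.ug.adj, ← F.ug.adj] at this
      rw [← F.vac t]
      exact this
    have a4 := a1.unique (a2.congr_of_eventuallyEq a3)
    simp only [inner_zero_right, zero_add, F.ug.zero, Function.comp_apply, I_neg_I,
      ContinuousLinearMap.coe_restrictScalars'] at a4
    rw [a4, ContinuousLinearMap.star_eq_adjoint, ContinuousLinearMap.adjoint_inner_left]
  have e2 := tendsto_nhds_unique (tendsto_const_nhds.inner (h1 c.Q.vac))
    ((((h2 ψ).inner tendsto_const_nhds).add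
      (tendsto_const_nhds.inner (h1 (c.Thf g c.Q.vac)))).congr fun n => (e n).symm)
  have e3 : inner ℂ ((c.Thf (bar (κ g)) ψ : D) : Completion D) ((X c.Q.vac : D) : Completion D) =
      inner ℂ ((X' ψ : D) : Completion D) (c.Th (κ g)) := by
    rw [Ctx.Th, Completion.inner_coe, Completion.inner_coe,
      th_adj (H246.isTest_bar (F.kap g hg).1.1), bar_bar, ← hc _ (F.kap g hg).1,
      ← inner_conj_symm, hX.1, inner_conj_symm]
  rw [Lam, e2, e3, hc g hg, inner_sub_right, inner_smul_right]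
  ring

end Fr

end Vale.Agent.P352X.G2

end
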