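import Vale.Agent.P352X.R.G2.Std

/-!
# P352X, row G2: geometry of cut cones and wedges (helper24)
-/

set_option linter.all false

noncomputable section

open Filter Topology

namespace Vale.Agent.P352X.G2

open Vale.Agent.P352 Vale.Agent.P352.GF Vale.Agent.P352.BW Vale.Agent.P352.H496
open Vale.Agent.P352.H755 (md_add md_sub md_smul md_comm md_add_l md_sub_l md_smul_l)

lemma md_nonneg {x y : V} (hx : 0 ≤ x o ∧ 0 ≤ mu x) (hy : 0 ≤ y o ∧ 0 ≤ mu y) : 0 ≤ mdot x y := by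
  obtain ⟨a1, a2, a3⟩ := (cone_iff x).1 hx
  obtain ⟨b1, b2, b3⟩ := (cone_iff y).1 hy
  rw [mdot_null, sub_nonneg]
  refine (le_abs_self _).trans (abs_le_of_sq_le_sq ((d2_sq_le _ _).trans ?_) (by positivity))
  have := mul_le_mul a3 b3 (d2_nonneg _) (by positivity)
  nlinarith [sq_nonneg (al x * be y - be x * al y)]

/-- opposite wedges are spacelike separated -/
lemma wdg_opp {a b v x z : V} (ha : IsNull a) (hb : IsNull b) (hx : x ∈ Wdg a b v)
    (hz : z ∈ Wdg b a v) : mdot (x - z) (x - z) < 0 := by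
  by_contra! h
  have hs : ∀ n : V, mdot n (x - z) = mdot n (x - v) - mdot n (z - v) := fun n => by
    rw [← md_sub, sub_sub_sub_cancel_right]
  rcases le_total 0 ((x - z) o) with h0 | h0
  · linarith [md_nonneg ⟨ha.2.le, ha.1.ge⟩ ⟨h0, h⟩, hs a, hx.1, hz.2]
  · have := md_nonneg (y := -(x - z)) ⟨hb.2.le, hb.1.ge⟩ ⟨neg_nonneg.2 h0, by rwa [mu_neg]⟩
    rw [md_neg] at this
    linarith [hs b, hx.2, hz.1]

lemma open_wdg (a b v : V) : IsOpen (Wdg a b v) :=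
  (isOpen_lt (f := fun x => mdot a (x - v)) (by fun_prop) continuous_const).inter
    (isOpen_lt (g := fun x => mdot b (x - v)) continuous_const (by fun_prop))

lemma open_Rw (w : R2) (y : V) (r : ℝ) : IsOpen (Rw w y r) :=
  (H732G.rg_open _ _ _).preimage (continuous_id.sub continuous_const)

lemma Rw_mono (w : R2) (y : V) {r r' : ℝ} (h0 : 0 ≤ r') (h : r' ≤ r) : Rw w y r ⊆ Rw w y r' :=
  fun _ hz => HM.Rg_mono (null_aw w) null_vb (aw_vb w) h0 h hz

lemma Rw_sub (w : R2) (y : V) {r : ℝ} (h : 0 ≤ r) : Rw w y r ⊆ Wdg (aw w) vb y := fun z hz => by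
  have := Rw_mono w y le_rfl h hz
  simpa [Rw, HM.Rg, Wdg] using this

/-- compact sets lie in cut cones -/
lemma ex_high {K : Set V} (hK : IsCompact K) (w : R2) : ∃ y r, 0 < r ∧ K ⊆ Rw w y r := by
  obtain ⟨M1, h1⟩ := hK.exists_bound_of_continuousOn
    (show Continuous fun z => mdot (aw w) z by fun_prop).continuousOn
  obtain ⟨M2, h2⟩ := hK.exists_bound_of_continuousOn cont_al.continuousOn
  set y : V := (M1 + 1) • vb - (M2 + 1) • aw w with hy
  obtain ⟨r, hr, h⟩ := H732G.cpt (a := aw w) (b := vb)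
    (hK.image (continuous_id.sub (continuous_const (y := y)))) (by
      rintro _ ⟨z, hz, rfl⟩
      have e1 : mdot (aw w) y = M1 + 1 := by
        rw [hy, md_sub, md_smul, md_smul, aw_vb, (null_aw w).1]; ring
      have e2 : al y = -(M2 + 1) := by simp [hy, aw]
      refine ⟨?_, ?_⟩
      · simp only [sub_zero, Pi.sub_apply, id, md_sub, e1]
        linarith [(abs_le.1 (h1 z hz)).2]
      · simp only [sub_zero, Pi.sub_apply, id, md_vb, al_sub, e2]
        linarith [(abs_le.1 (h2 z hz)).1])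
  exact ⟨y, r, hr, fun z hz => h ⟨z, hz, rfl⟩⟩

/-- far regions -/
def On (n : ℕ) : Set V :=
  {z | -(2 * n : ℝ) < al z ∧ al z < -n ∧ (n : ℝ) ^ 2 < be z ∧ d2 (tx z) (tx z) < 1}

lemma open_On (n : ℕ) : IsOpen (On n) :=
  (isOpen_lt continuous_const cont_al).inter ((isOpen_lt cont_al continuous_const).inter
    ((isOpen_lt continuous_const cont_be).inter 
      (isOpen_lt (cont_d2 cont_tx cont_tx) continuous_const)))

lemma On_ne {n : ℕ} (h : 1 ≤ n) : (On n).Nonempty := by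
  have : (1 : ℝ) ≤ n := by exact_mod_cast h
  refine ⟨pt (-(3 / 2 * n)) (n ^ 2 + 1) 0, ?_, ?_, ?_, ?_⟩ <;> simp <;> linarith

lemma On_sub (w : R2) (y : V) : ∀ᶠ n in atTop, On n ⊆ Wdg vb (aw w) y := by
  filter_upwards [tendsto_natCast_atTop_atTop.eventually_ge_atTop (-al y),
    tendsto_natCast_atTop_atTop.eventually_ge_atTop
      (d2 w w + 1 + |(d2 w w + 1) / 2 + mdot (aw w) y|)] with n h1 h2 z hz
  obtain ⟨a1, a2, a3, a4⟩ := hz
  refine ⟨by simp only [md_vb, al_sub]; linarith, ?_⟩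
  rw [md_sub, md_aw w z]
  have b1 := d2_nonneg (w - tx z)
  simp only [d2_sub, d2_sub_l, d2_comm (tx z) w] at b1
  have b2 := d2_nonneg w
  have b3 := le_abs_self ((d2 w w + 1) / 2 + mdot (aw w) y)
  have b4 := abs_nonneg ((d2 w w + 1) / 2 + mdot (aw w) y)
  have b5 := mul_le_mul_of_nonneg_left a1.le b2
  nlinarith

lemma aw_id (w : R2) (d : V) :
    2 * al d * mdot (aw w) d = mu d + d2 (tx d - al d • w) (tx d - al d • w) := by
  simp only [md_aw, mu_eq, d2, Pi.sub_apply, Pi.smul_apply, smul_eq_mul]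
  ring

lemma aw_aw (w u : R2) : mdot (aw w) (aw u) = d2 (w - u) (w - u) / 2 := by
  rw [md_aw]
  simp only [aw, al_pt, be_pt, tx_pt, d2, Pi.sub_apply]
  ring

lemma ex_w {d : V} (h : mu d < 0) : ∃ w, 0 < mdot (aw w) d := by
  rcases lt_trichotomy (al d) 0 with h1 | h1 | h1
  · refine ⟨(al d)⁻¹ • tx d, ?_⟩
    have := aw_id ((al d)⁻¹ • tx d) d
    rw [smul_smul, mul_inv_cancel₀ h1.ne, one_smul, sub_self, d2_zero] at this
    nlinarith
  · have h2 : 0 < d2 (tx d) (tx d) := by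
      rw [mu_eq, h1] at h
      linarith
    refine ⟨(-((|be d| + 1) / d2 (tx d) (tx d))) • tx d, ?_⟩
    rw [md_aw, h1, d2_smul_l (u := tx d) (v := tx d), neg_mul, div_mul_cancel₀ _ h2.ne']
    linarith [neg_abs_le (be d)]
  · refine ⟨(al d)⁻¹ • (tx d - (1 - mu d) • e2 0), ?_⟩
    have := aw_id ((al d)⁻¹ • (tx d - (1 - mu d) • e2 0)) d
    rw [smul_smul, mul_inv_cancel₀ h1.ne', one_smul, sub_sub_cancel, d2_smul, d2_smul_l, d2_e2,
      e2_self] at this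
    nlinarith

/-- `U` lies in a cut cone and `U1` in a wedge that is spacelike to a larger cut cone -/
def Low (w : R2) (U U1 : Set V) : Prop := ∃ y r r' b v, 0 < r' ∧ r' < r ∧ U ⊆ Rw w y r ∧
  IsNull b ∧ 0 < mdot (aw w) b ∧ Rw w y r' ⊆ Wdg (aw w) b v ∧ U1 ⊆ Wdg b (aw w) v

lemma Low.mono {w : R2} {U U1 W W1 : Set V} (h : Low w U U1) (h1 : W ⊆ U) (h2 : W1 ⊆ U1) :
    Low w W W1 := by
  obtain ⟨y, r, r', b, v, a1, a2, a3, a4, a5, a6, a7⟩ := h
  exact ⟨y, r, r', b, v, a1, a2, h1.trans a3, a4, a5, a6, h2.trans a7⟩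

lemma ex_low {x x1 : V} (h : mu (x1 - x) < 0) {w : R2} (hw : 0 < mdot (aw w) (x1 - x)) :
    ∃ U U1, IsOpen U ∧ x ∈ U ∧ IsOpen U1 ∧ x1 ∈ U1 ∧ Low w U U1 := by
  obtain ⟨u, hu⟩ := ex_w (d := -(x1 - x)) (by rwa [mu_neg])
  rw [md_neg, neg_pos] at hu
  have hab : 0 < mdot (aw w) (aw u) := by
    rw [aw_aw]
    refine half_pos ((d2_nonneg _).lt_of_ne' fun h0 => ?_)
    rw [sub_eq_zero.1 ((d2_eq_zero _).1 h0)] at hw
    linarith
  have hba : mdot (aw u) (aw w) = mdot (aw w) (aw u) := md_comm _ _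
  set m := mdot (aw w) (aw u) with hm
  obtain ⟨ε, e0, e1, e2⟩ : ∃ ε : ℝ, 0 < ε ∧ ε < mdot (aw w) (x1 - x) ∧
      ε * (m + 3) < -mdot (aw u) (x1 - x) := by
    have h1 : ∀ᶠ ε in 𝓝[>] (0 : ℝ), ε * (m + 3) < -mdot (aw u) (x1 - x) :=
      nhdsWithin_le_nhds ((show Continuous fun ε : ℝ => ε * (m + 3) by
        fun_prop).continuousAt.eventually_lt continuousAt_const (by simpa using hu))
    obtain ⟨ε, a, b⟩ := (h1.and (Ioo_mem_nhdsGT hw)).exists
    exact ⟨ε, b.1, b.2, a⟩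
  set y : V := x - ε • aw w + ε • vb with hy
  set v : V := y - (4 * ε / m) • aw w with hv
  have hxy : x - y = ε • aw w - ε • vb := by rw [hy]; abel
  have haa := (null_aw w).1
  have hva : mdot vb (aw w) = 1 := by rw [md_comm, aw_vb]
  refine ⟨Rw w y (1 / (4 * ε)), Wdg (aw u) (aw w) v, open_Rw _ _ _, ?_, open_wdg _ _ _, ?_,
    y, _, 1 / (8 * ε), aw u, v, by positivity, ?_, le_rfl, null_aw u, hab, fun z hz => ?_, le_rfl⟩
  · show x - y ∈ HM.Rg _ _ _
    rw [hxy, HM.mem_Rg]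
    simp only [md_sub, md_sub_l, md_smul, md_smul_l, haa, hva, aw_vb, null_vb.1]
    refine ⟨by linarith, ?_, ?_⟩
    · have : 2 * (1 / (4 * ε)) * (ε * 0 - ε * 1) = -(1 / 2) := by field_simp; ring
      linarith
    · have : 1 / (4 * ε) * (ε * (ε * 0) - ε * (ε * 1) - (ε * (ε * 1) - ε * (ε * 0))) =
        -(ε / 2) := by field_simp; ring
      linarith
  · have e : x1 - v = (x1 - x) + (ε • aw w - ε • vb) + (4 * ε / m) • aw w := by
      rw [← hxy, hv]; abel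
    have e' : 4 * ε / m * m = 4 * ε := div_mul_cancel₀ _ hab.ne'
    refine ⟨?_, ?_⟩ <;> rw [e, md_add, md_add, md_sub (x := ε • aw w), md_smul, md_smul, md_smul,
      aw_vb]
    · rw [hba, e']
      linarith
    · rw [haa]
      linarith
  · exact one_div_lt_one_div_of_lt (by positivity) (by linarith)
  · obtain ⟨a1, a2, a3⟩ := hz
    have e : z - v = (z - y) + (4 * ε / m) • aw w := by rw [hv]; abel
    have e' : 4 * ε / m * m = 4 * ε := div_mul_cancel₀ _ hab.ne'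
    refine ⟨by rw [e, md_add, md_smul, haa]; linarith, ?_⟩
    generalize z - y = s at a1 a2 a3 e
    have b1 : 0 < mu (s + (4 * ε) • vb) := by
      have : mu (s + (4 * ε) • vb) = 8 * ε * (mdot vb s + 1 / (8 * ε) * mdot s s) := by
        simp only [mu, md_add, md_add_l, md_smul, md_smul_l, null_vb.1, md_comm s vb]
        field_simp
        ring
      rw [this]
      positivity
    have b2 : 0 < mdot (aw w) (s + (4 * ε) • vb) := by
      have : mdot (aw w) (s + (4 * ε) • vb) = 4 * ε * (1 + 2 * (1 / (8 * ε)) * mdot (aw w) s) := by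
        rw [md_add, md_smul, aw_vb]
        field_simp
        ring
      rw [this]
      positivity
    have b3 : 0 < al (s + (4 * ε) • vb) := by
      have := aw_id w (s + (4 * ε) • vb)
      nlinarith [d2_nonneg (tx (s + (4 * ε) • vb) - al (s + (4 * ε) • vb) • w)]
    have b4 : 0 < mdot (aw u) (s + (4 * ε) • vb) := by
      have := aw_id u (s + (4 * ε) • vb)
      nlinarith [d2_nonneg (tx (s + (4 * ε) • vb) - al (s + (4 * ε) • vb) • u)]
    rw [md_add, md_smul, aw_vb] at b4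
    rw [e, md_add, md_smul, hba, e']
    linarith

/-- four null vectors span -/
lemma span4 {P : V → Prop} (hP : ∀ (s t : ℝ) h k, P h → P k → P (s • h + t • k)) (w : R2) {ε : ℝ}
    (hε : ε ≠ 0) (h0 : P (aw w)) (h1 : P (aw (w + ε • e2 0))) (h2 : P (aw (w - ε • e2 0)))
    (h3 : P (aw (w + ε • e2 1))) (h : V) : P h := by
  have e01 : e2 0 1 = 0 := by simp [e2]
  have e10 : e2 1 0 = 0 := by simp [e2]
  have tac : ∀ x y : V, al x = al y → be x = be y → tx x 0 = tx y 0 → tx x 1 = tx y 1 → P x →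
      P y := fun x y a b c d p => Grp.vext a b c d ▸ p
  have pb : P vb := by
    refine tac _ _ ?_ ?_ ?_ ?_ (hP (ε ^ 2)⁻¹ (-2 * (ε ^ 2)⁻¹) _ _ (hP 1 1 _ _ h1 h2) h0) <;>
      simp [aw, d2, e01, -tx_0, -tx_1] <;> field_simp <;> ring
  have p0 : P (ex 0) := by
    refine tac _ _ ?_ ?_ ?_ ?_ (hP (2 * ε)⁻¹ (-w 0) _ _ (hP 1 (-1) _ _ h1 h2) pb) <;>
      simp [aw, d2, e01, -tx_0, -tx_1] <;> field_simp <;> ring
  have p1 : P (ex 1) := by
    refine tac _ _ ?_ ?_ ?_ ?_ (hP ε⁻¹ (-(w 1 + ε / 2)) _ _ (hP 1 (-1) _ _ h3 h0) pb) <;>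
      simp [aw, d2, e10, -tx_0, -tx_1] <;> field_simp <;> ring
  have pa : P va := by
    refine tac _ _ ?_ ?_ ?_ ?_
      (hP 1 1 _ _ (hP 1 (-(d2 w w / 2)) _ _ h0 pb) (hP (-w 0) (-w 1) _ _ p0 p1)) <;>
      simp [aw, e01, e10, -tx_0, -tx_1]
  refine tac _ _ ?_ ?_ ?_ ?_
    (hP 1 1 _ _ (hP (al h) (be h) _ _ pa pb) (hP (tx h 0) (tx h 1) _ _ p0 p1)) <;>
    simp [e01, e10, -tx_0, -tx_1]

/-- the local geometry of two spacelike points -/
lemma ex_low4 {x x1 : V} (h : mu (x1 - x) < 0) : ∃ U U1, IsOpen U ∧ x ∈ U ∧ IsOpen U1 ∧ x1 ∈ U1 ∧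
    ∀ P : V → Prop, (∀ (s t : ℝ) h k, P h → P k → P (s • h + t • k)) →
      (∀ w, Low w U U1 → P (aw w)) → ∀ h, P h := by
  obtain ⟨w, hw⟩ := ex_w h
  have hc : ∀ u : R2, ∀ᶠ ε in 𝓝[>] (0 : ℝ), 0 < mdot (aw (w + ε • u)) (x1 - x) := fun u => by
    refine nhdsWithin_le_nhds (continuousAt_const.eventually_lt
      (Continuous.continuousAt ?_) (by simpa using hw))
    simp only [md_aw]
    fun_prop
  obtain ⟨ε, ⟨⟨a1, a2⟩, a3⟩, a4⟩ :=
    ((((hc (e2 0)).and (hc (-e2 0))).and (hc (e2 1))).and self_mem_nhdsWithin).exists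
  rw [smul_neg, ← sub_eq_add_neg] at a2
  obtain ⟨U0, W0, b1, b2, b3, b4, b5⟩ := ex_low h hw
  obtain ⟨U1, W1, c1, c2, c3, c4, c5⟩ := ex_low h a1
  obtain ⟨U2, W2, d1, d2, d3, d4, d5⟩ := ex_low h a2
  obtain ⟨U3, W3, f1, f2, f3, f4, f5⟩ := ex_low h a3
  refine ⟨U0 ∩ U1 ∩ (U2 ∩ U3), W0 ∩ W1 ∩ (W2 ∩ W3), (b1.inter c1).inter (d1.inter f1),
    ⟨⟨b2, c2⟩, d2, f2⟩, (b3.inter c3).inter (d3.inter f3), ⟨⟨b4, c4⟩, d4, f4⟩, fun P hP hl =>
    span4 hP w (ne_of_gt a4) (hl _ (b5.mono (fun _ p => p.1.1) fun _ p => p.1.1))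
      (hl _ (c5.mono (fun _ p => p.1.2) fun _ p => p.1.2))
      (hl _ (d5.mono (fun _ p => p.2.1) fun _ p => p.2.1))
      (hl _ (f5.mono (fun _ p => p.2.2) fun _ p => p.2.2))⟩

end Vale.Agent.P352X.G2

end
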