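import Vale.Agent.P352.H148.Jc
import Vale.Agent.P352.H246.Part
import Vale.Agent.P352.H246.Dens
import Vale.Agent.P352.H246.Alg
import Vale.Agent.P352.H15.NPDefs

/-!
# P352X, row G2: the theorem of Reeh and Schlieder for unbounded functionals (helper24)
-/

set_option linter.all false

noncomputable section

open Filter Topology
open scoped SchwartzMap

namespace Vale.Agent.P352X.G2

open Vale.Agent.P352 Vale.Agent.P352.H246 Vale.Agent.P352.H148
open Vale.Agent.P352.GF (Ix V Fn sim one bar)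
open UniformSpace (Completion)

variable {D : Type*} [NormedAddCommGroup D] [InnerProductSpace ℂ D]
variable {Q : GF.Theory D} {A : (V → V) → D → D}

lemma U1_mul (R : H15.Rep Q A) (a b : Mink) (v : D) : U1 Q a (U1 Q b v) = U1 Q (a + b) v := by
  show Q.U 1 one a.ofLp (Q.U 1 one b.ofLp v) = Q.U 1 one (a + b).ofLp v
  rw [R.mul 1 one _ 1 one _ v one_pos one_pos isLor_one isLor_one, mul_one]
  congr 1
  · funext m
    rw [sim_one]
    funext n
    simp
  · rw [sim_one]
    rfl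

lemma U1_zero' (R : H15.Rep Q A) (v : D) : U1 Q 0 v = v := by
  have h := U1_norm (Q := Q) 0 (U1 Q 0 v - v)
  rw [U1_sub, U1_mul R, add_zero, sub_self, norm_zero] at h
  exact sub_eq_zero.1 (norm_eq_zero.1 h.symm)

lemma U1_adj (R : H15.Rep Q A) (a : Mink) (v w : D) :
    inner ℂ v (U1 Q a w) = inner ℂ (U1 Q (-a) v) w := by
  rw [← U1_inner (Q := Q) a (U1 Q (-a) v), U1_mul R, add_neg_cancel, U1_zero' R]

lemma snS_tau (k : ℕ) (g : 𝓢(Mink, ℂ)) (a : Mink) :
    snS k (tauS a g) ≤ 2 ^ k * (2 * snS k g) * (1 + ‖a‖) ^ k := by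
  have h0 := snS_nonneg k g
  have h1 : (1 : ℝ) ≤ 1 + ‖a‖ := by linarith [norm_nonneg a]
  refine snS_le_of (by positivity) fun i hi j hj => (seminorm_shift_le g i j a).trans ?_
  have h2 : ‖a‖ ^ i ≤ (1 + ‖a‖) ^ k :=
    (pow_le_pow_left₀ (norm_nonneg a) (by linarith) i).trans (pow_le_pow_right₀ h1 hi)
  have h3 : (1 : ℝ) ≤ (1 + ‖a‖) ^ k := one_le_pow₀ h1
  have h4 := seminorm_le_snS hi hj g
  have h5 := seminorm_le_snS (Nat.zero_le k) hj g
  have h6 : (2 : ℝ) ^ i ≤ 2 ^ k := pow_le_pow_right₀ one_le_two hi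
  have h7 : SchwartzMap.seminorm ℂ i j g + ‖a‖ ^ i * SchwartzMap.seminorm ℂ 0 j g ≤
      2 * snS k g * (1 + ‖a‖) ^ k := by
    have := mul_le_mul h2 h5 (apply_nonneg _ _) (by positivity)
    nlinarith
  rw [mul_assoc]
  exact mul_le_mul h6 h7 (by positivity) (by positivity)

/-- polynomial bounds along the translations -/
def PB (Q : GF.Theory D) (X : D → D) : Prop :=
  ∀ v, ∃ (C : ℝ) (N : ℕ), 0 ≤ C ∧ ∀ a, ‖X (U1 Q a v)‖ ≤ C * (1 + ‖a‖) ^ N

lemma PB.fld (R : H15.Rep Q A) {X X' : D → D} (hX : ∀ v w, inner ℂ (X v) w = inner ℂ v (X' w))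
    (h : PB Q X) {B : GF.Fld D} (hB : Q.fld B) (g : 𝓢(Mink, ℂ)) :
    PB Q fun v => X (B (fl g) v) := by
  intro v
  have hX' : ∀ v w, inner ℂ v (X w) = inner ℂ (X' v) w := fun v w => by
    rw [← inner_conj_symm, hX, inner_conj_symm]
  have := barrelled_schwartz
  have hL : ∀ a : Mink, ∃ L : 𝓢(Mink, ℂ) →L[ℂ] D, ∀ f, L f = X (U1 Q a (B (fl f) v)) := by
    intro a
    set L0 : 𝓢(Mink, ℂ) →ₗ[ℂ] D :=
      { toFun := fun f => X (U1 Q a (B (fl f) v))
        map_add' := fun f f' => ext_inner_left ℂ fun z => by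
          rw [fld_addf hB, U1_add, inner_add_right, hX', hX', hX', inner_add_right]
        map_smul' := fun c f => ext_inner_left ℂ fun z => by
          rw [fld_smulf hB, U1_smul, RingHom.id_apply, inner_smul_right, hX', hX',
            inner_smul_right] } with hL0
    refine ⟨⟨L0, cont_of_weak L0 (Z := Set.univ) dense_univ fun z _ => ?_⟩, fun f => rfl⟩
    have e : (fun f : 𝓢(Mink, ℂ) => inner ℂ z (L0 f)) =
        fun f => inner ℂ (U1 Q (-a) (X' z)) (B (fl f) v) := by
      funext f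
      show inner ℂ z (X (U1 Q a (B (fl f) v))) = _
      rw [hX', U1_adj R]
    rw [e]
    exact continuous_const.inner (fld_cont hB v)
  choose L hL using hL
  have key : ∃ (C : ℝ) (k : ℕ), 0 ≤ C ∧ ∀ a f, ‖L a f‖ ≤ C * (1 + ‖a‖) ^ k * snS k f := by
    by_contra hcon
    push Not at hcon
    choose a f haf using fun n : ℕ => hcon n n (by positivity)
    set T : ℕ → 𝓢(Mink, ℂ) →L[ℂ] D := fun n => (((1 + ‖a n‖) ^ n : ℝ)⁻¹ : ℂ) • L (a n) with hT
    have hp : ∀ n, 0 < (1 + ‖a n‖) ^ n := fun n => by positivity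
    have hTn : ∀ n x, ‖T n x‖ = ((1 + ‖a n‖) ^ n)⁻¹ * ‖L (a n) x‖ := by
      intro n x
      rw [hT]
      simp only [ContinuousLinearMap.smul_apply, norm_smul, norm_inv, Complex.norm_real,
        Real.norm_of_nonneg (hp n).le]
    have hbd : ∀ (k : Fin 1) (x : 𝓢(Mink, ℂ)), BddAbove (Set.range fun n =>
        (fun _ : Fin 1 => normSeminorm ℂ D) k ((T n) x)) := by
      intro k x
      obtain ⟨C, N, hC, hb⟩ := h (B (fl x) v)
      have h1 : ∀ᶠ n in atTop, ‖T n x‖ ≤ C := by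
        filter_upwards [eventually_ge_atTop N] with n hn
        rw [hTn, hL, inv_mul_le_iff₀ (hp n), mul_comm]
        refine (hb _).trans (mul_le_mul_of_nonneg_left ?_ hC)
        exact pow_le_pow_right₀ (by linarith [norm_nonneg (a n)]) hn
      exact IsBoundedUnder.bddAbove_range ⟨C, h1⟩
    have heq := (norm_withSeminorms ℂ D).banach_steinhaus (𝓕 := T) hbd
    have hq := (norm_withSeminorms ℂ D).uniformEquicontinuous_iff_exists_continuous_seminorm
      (fun n => (T n : 𝓢(Mink, ℂ) →ₗ[ℂ] D))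
    obtain ⟨p, hp1, hp2⟩ := hq.1 heq 0
    obtain ⟨C, k, hC, hk⟩ := exists_snS p hp1
    obtain ⟨n, hn1, hn2⟩ : ∃ n : ℕ, C ≤ n ∧ k ≤ n := by
      obtain ⟨m, hm⟩ := exists_nat_ge C
      exact ⟨max m k, hm.trans (Nat.cast_le.2 (le_max_left _ _)), le_max_right _ _⟩
    have h1 : ‖T n (f n)‖ ≤ n * snS n (f n) :=
      (hp2 n (f n)).trans ((hk _).trans
        (mul_le_mul hn1 (snS_mono hn2 _) (snS_nonneg _ _) (by positivity)))
    rw [hTn, inv_mul_le_iff₀ (hp n)] at h1
    linarith [haf n]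
  obtain ⟨C, k, hC, hb⟩ := key
  have h0 := snS_nonneg k g
  refine ⟨C * (2 ^ k * (2 * snS k g)), k + k, by positivity, fun a => ?_⟩
  have e1 : B (fl g) (U1 Q a v) = U1 Q a (B (fl (tauS (-a) g)) v) := by
    have h1 := U_fld hB (tauS (-a) g) a v
    rw [tauS_tauS, neg_add_cancel, tauS_zero'] at h1
    exact h1.symm
  have h2 := snS_tau k g (-a)
  rw [norm_neg] at h2
  show ‖X (B (fl g) (U1 Q a v))‖ ≤ _
  rw [e1, ← hL, pow_add]
  refine (hb _ _).trans ((mul_le_mul_of_nonneg_left h2 (by positivity)).trans_eq (by ring))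

theorem pb_al (R : H15.Rep Q A) {W : Set V} {X X' : D → D} (h : Al Q W X X') : PB Q X := by
  suffices H : ∀ {X X' : D → D}, Al Q W X X' → PB Q X' from H h.star
  intro X X' h
  induction h with
  | one => exact fun v => ⟨‖v‖, 0, norm_nonneg _, fun a => by simp [U1_norm]⟩
  | add X X' Y Y' _ _ ih1 ih2 =>
    intro v
    obtain ⟨C, N, hC, h1⟩ := ih1 v
    obtain ⟨C', N', hC', h2⟩ := ih2 v
    refine ⟨C + C', N + N', by positivity, fun a => (norm_add_le _ _).trans ?_⟩
    have h3 : (1 : ℝ) ≤ 1 + ‖a‖ := by linarith [norm_nonneg a]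
    rw [add_mul]
    exact add_le_add ((h1 a).trans (mul_le_mul_of_nonneg_left
      (pow_le_pow_right₀ h3 (Nat.le_add_right _ _)) hC)) ((h2 a).trans (mul_le_mul_of_nonneg_left
      (pow_le_pow_right₀ h3 (Nat.le_add_left _ _)) hC'))
  | smul c X X' _ ih =>
    intro v
    obtain ⟨C, N, hC, h1⟩ := ih v
    refine ⟨‖star c‖ * C, N, by positivity, fun a => ?_⟩
    show ‖star c • X' (U1 Q a v)‖ ≤ _
    rw [norm_smul, mul_assoc]
    exact mul_le_mul_of_nonneg_left (h1 a) (norm_nonneg _)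
  | fld B B' g X X' hB hB' hadj hg hX ih =>
    obtain ⟨G, hG⟩ := exists_fl (isTest_bar hg.1)
    rw [← hG]
    exact ih.fld R hX.adj' hB' G

theorem hol_al (R : H15.Rep Q A) {W : Set V} {X X' : D → D} (h : Al Q W X X')
    (y : Completion D) (v : D) : Hol fun a => inner ℂ y ((X (U1 Q a v) : D) : Completion D) := by
  obtain ⟨C, N, hC, hle⟩ := pb_al R h v
  refine ⟨N, LineHol.lim fun ε hε => ?_⟩
  obtain ⟨z, hz⟩ := exists_coe y (ε := ε / (C + 1)) (by positivity)
  refine ⟨fun a => inner ℂ (X' z) (U1 Q a v), ?_, fun a => ?_⟩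
  · have := (lineHol_inner (Q := Q) (X' z) v).raise N
    rwa [zero_add] at this
  · show ‖inner ℂ y ((X (U1 Q a v) : D) : Completion D) - inner ℂ (X' z) (U1 Q a v)‖ ≤ _
    rw [h.adj', ← Completion.inner_coe z, ← inner_sub_left]
    calc _ ≤ ‖y - (z : Completion D)‖ * ‖((X (U1 Q a v) : D) : Completion D)‖ :=
          norm_inner_le_norm _ _
      _ ≤ ε / (C + 1) * ((C + 1) * (1 + ‖a‖) ^ N) := by
          rw [Completion.norm_coe]
          exact mul_le_mul hz.le ((hle a).trans (by gcongr; linarith)) (norm_nonneg _)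
            (by positivity)
      _ = ε * (1 + ‖a‖) ^ N := by field_simp

/-- the class of functionals for the theorem of Reeh and Schlieder -/
structure Cl (Q : GF.Theory D) (F : D → ℂ) : Prop where
  add : ∀ v w, F (v + w) = F v + F w
  smul : ∀ (c : ℂ) v, F (c • v) = c * F v
  hol : ∀ X X' v, Al Q Set.univ X X' → Hol fun a => F (X (U1 Q a v))

lemma Cl.inner (R : H15.Rep Q A) (y : Completion D) :
    Cl Q fun v => inner ℂ y (v : Completion D) where
  add v w := by rw [Completion.coe_add, inner_add_right]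
  smul c v := by rw [Completion.coe_smul, inner_smul_right]
  hol X X' v h := hol_al R h y v

lemma Cl.comp {F : D → ℂ} (h : Cl Q F) {X X' : D → D} (hX : Al Q Set.univ X X') :
    Cl Q fun v => F (X v) where
  add v w := by rw [hX.map_add, h.add]
  smul c v := by rw [hX.map_smul, h.smul]
  hol Y Y' v hY := h.hol _ _ v (hX.mul hY)

lemma Cl.sum {F G : D → ℂ} (h : Cl Q F) (h' : Cl Q G) : Cl Q fun v => F v + G v where
  add v w := by rw [h.add, h'.add]; ring
  smul c v := by rw [h.smul, h'.smul]; ring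
  hol X X' v hX := (h.hol X X' v hX).add (h'.hol X X' v hX)

lemma Cl.mul {F : D → ℂ} (h : Cl Q F) (t : ℂ) : Cl Q fun v => t * F v where
  add v w := by rw [h.add]; ring
  smul c v := by rw [h.smul]; ring
  hol X X' v hX := by
    obtain ⟨N, hN⟩ := h.hol X X' v hX
    exact ⟨N, hN.smul t⟩

lemma Cl.sub {F G : D → ℂ} (h : Cl Q F) (h' : Cl Q G) : Cl Q fun v => F v - G v := by
  simpa only [neg_one_mul, ← sub_eq_add_neg] using h.sum (h'.mul (-1))

lemma Cl.zero {F : D → ℂ} (h : Cl Q F) : F 0 = 0 := by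
  simpa using h.smul 0 0

lemma al_fld {W : Set V} {B : GF.Fld D} (hB : Q.fld B) {g : Fn} (hg : In W g) :
    ∃ X', Al Q W (B g) X' := by
  obtain ⟨B', hB', hadj⟩ := Q.adj B hB
  exact ⟨_, Al.fld B B' g _ _ hB hB' hadj hg Al.one⟩

/-- **Reeh and Schlieder.** -/
theorem rs (R : H15.Rep Q A) {O : Set V} (hO : IsOpen O) (hne : O.Nonempty) {F : D → ℂ}
    (hF : Cl Q F) (h0 : ∀ v, Gen Q O v → F v = 0) {v : D} (hv : Gen Q Set.univ v) : F v = 0 := by
  obtain ⟨x0', hx0'⟩ := hne
  set x0 : Mink := WithLp.toLp 2 x0' with hx0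
  have hMO : IsOpen (MW O) := hO.preimage (PiLp.continuous_ofLp 2 _)
  obtain ⟨r, hr, hball⟩ := Metric.isOpen_iff.1 hMO x0 hx0'
  set ε : ℝ := r / 2 with hε
  have hε0 : 0 < ε := by positivity
  have key : ∀ X X', Al Q Set.univ X X' → ∀ F, Cl Q F → (∀ v, Gen Q O v → F v = 0) →
      ∀ a : Mink, F (U1 Q a (X Q.vac)) = 0 := by
    intro X X' hX
    induction hX with
    | one =>
      intro F _ h0 a
      rw [U1_vac]
      exact h0 _ ⟨_, _, Al.one, rfl⟩
    | add X X' Y Y' _ _ h1 h2 =>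
      intro F hF h0 a
      rw [U1_add, hF.add, h1 F hF h0, h2 F hF h0, add_zero]
    | smul c X X' _ h1 =>
      intro F hF h0 a
      rw [U1_smul, hF.smul, h1 F hF h0, mul_zero]
    | fld B B' g X X' hB hB' hadj hg hX ih =>
      intro F hF h0
      obtain ⟨G, rfl, hG⟩ := exists_In hg
      show ∀ a, F (U1 Q a (B (fl G) (X Q.vac))) = 0
      generalize X Q.vac = v at ih ⊢
      have hsm : ∀ f : 𝓢(Mink, ℂ), IsTest (Metric.ball x0 ε) f → ∀ b a : Mink,
          F (U1 Q a (B (fl f) (U1 Q b v))) = 0 := by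
        intro f hf b a
        refine (hF.hol _ _ (B (fl f) (U1 Q b v)) Al.one).unique
          (O := Metric.ball 0 ε) Metric.isOpen_ball ⟨0, Metric.mem_ball_self hε0⟩ ?_ a
        intro a ha
        have e1 : U1 Q a (B (fl f) (U1 Q b v)) = B (fl (tauS a f)) (U1 Q a (U1 Q b v)) :=
          U_fld hB f a _
        have e2 : IsTest (MW O) (tauS a f) := by
          refine hf.tauS a fun x hx => hball ?_
          rw [Metric.mem_ball, dist_eq_norm] at hx ⊢
          rw [Metric.mem_ball, dist_zero_right] at ha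
          calc ‖x + a - x0‖ = ‖(x - x0) + a‖ := by congr 1; abel
            _ ≤ ‖x - x0‖ + ‖a‖ := norm_add_le _ _
            _ < ε + ε := add_lt_add hx ha
            _ = r := by rw [hε]; ring
        obtain ⟨Y', hY⟩ := al_fld hB (In_fl.2 e2)
        show F (U1 Q a (B (fl f) (U1 Q b v))) = 0
        rw [e1, U1_mul R]
        refine ih _ (hF.comp (hY.mono (Set.subset_univ _))) ?_ _
        rintro _ ⟨Z, Z', hZ, rfl⟩
        exact h0 _ ⟨_, _, hY.mul hZ, rfl⟩
      obtain ⟨U, hU, hKU, hall⟩ := part_induct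
        (P := fun f => ∀ a : Mink, F (U1 Q a (B (fl f) v)) = 0) (K := tsupport G) (by
          intro a
          have h1 := U1_smul (Q := Q) a 0 (0 : D)
          rw [zero_smul, zero_smul] at h1
          rw [fld_zero hB, h1, hF.zero]) (by
          intro f1 f2 _ _ h1 h2 a
          rw [fld_addf hB, U1_add, hF.add, h1, h2, add_zero]) hG.1 (by
          intro x _
          refine ⟨Metric.ball x ε, Metric.isOpen_ball, Metric.mem_ball_self hε0, ?_⟩
          intro f hf a
          have e1 : IsTest (Metric.ball x0 ε) (tauS (x0 - x) f) := by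
            refine hf.tauS _ fun y hy => ?_
            rw [Metric.mem_ball, dist_eq_norm] at hy ⊢
            calc ‖y + (x0 - x) - x0‖ = ‖y - x‖ := by congr 1; abel
              _ < ε := hy
          have e2 := hsm _ e1 (x0 - x) (a + (x - x0))
          have e3 : B (fl (tauS (x0 - x) f)) (U1 Q (x0 - x) v) = U1 Q (x0 - x) (B (fl f) v) :=
            (U_fld hB f (x0 - x) v).symm
          rw [e3, U1_mul R] at e2
          have e5 : a + (x - x0) + (x0 - x) = a := by abel
          rwa [e5] at e2)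
      exact hall G ⟨hG.1, hKU⟩
  obtain ⟨X, X', hX, rfl⟩ := hv
  have := key X X' hX F hF h0 0
  rwa [U1_zero' R] at this

/-- partitions of unity, as an induction principle -/
theorem in_induct {P : Fn → Prop} (h0 : P (fun _ => 0))
    (hadd : ∀ f g, In Set.univ f → In Set.univ g → P f → P g → P (fun x => f x + g x))
    {K : Set V} (hK : IsCompact K)
    (hloc : ∀ x ∈ K, ∃ U, IsOpen U ∧ x ∈ U ∧ ∀ f, In U f → P f) :
    ∃ U, IsOpen U ∧ K ⊆ U ∧ ∀ f, In U f → P f := by
  obtain ⟨U, hU, hKU, h⟩ := part_induct (P := fun F => P (fl F)) (K := WithLp.toLp 2 '' K) h0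
    (fun f g hf hg h1 h2 => hadd _ _ (In_fl.2 hf) (In_fl.2 hg) h1 h2)
    (hK.image (PiLp.continuous_toLp 2 _)) (by
      rintro _ ⟨x, hx, rfl⟩
      obtain ⟨U, hU, hxU, h⟩ := hloc x hx
      exact ⟨MW U, hU.preimage (PiLp.continuous_ofLp 2 _), hxU, fun f hf => h _ (In_fl.2 hf)⟩)
  refine ⟨WithLp.toLp 2 ⁻¹' U, hU.preimage (PiLp.continuous_toLp 2 _),
    fun x hx => hKU ⟨x, hx, rfl⟩, fun f hf => ?_⟩
  obtain ⟨F, rfl, hF⟩ := exists_In hf
  exact h F hF

end Vale.Agent.P352X.G2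

end
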