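import Vale.Agent.P352X.R.G2.Fr

/-!
# P352X, row G2: existence of frames (helper24)
-/

set_option linter.all false

noncomputable section

open Filter Topology
open scoped SchwartzMap ContDiff ComplexConjugate

namespace Vale.Agent.P352X.G2

open Vale.Agent.P352 Vale.Agent.P352.GF Vale.Agent.P352.BW Vale.Agent.P352.H496
open Vale.Agent.P352.H246 (In Al Gen linv isLor_linv bar_bar)
open UniformSpace (Completion)
open Complex (I)

variable {D : Type*} [NormedAddCommGroup D] [InnerProductSpace ℂ D] {c : Ctx D}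

lemma Rc_mono {r r' : ℝ} (h0 : 0 ≤ r') (h : r' ≤ r) (y : V) : Rc r y ⊆ Rc r' y :=
  fun _ hz => HM.Rg_mono null_va null_vb md_ab h0 h hz

theorem fr_std (T : T3 c) (g1 : G1 c) {r r' : ℝ} (h0 : 0 < r') (h : r' < r) :
    Fr c va (Rc r 0) (Rc r' 0) c.SK (Kc 4) := by
  have G := T.grp
  have ug : UG c.SK := UG.of (c.hS.zero va null_va) (fun s t => c.hS.add va s t null_va)
    (fun t => G.S_uni va t null_va) fun z => c.hS.cont va z null_va
  refine ⟨ug, fun t => c.hS.vac va t null_va, ?_, fun P P' hP => ?_,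
    fun g hg => ⟨in_Kc hg 4, bar_Kc hg.1 4⟩,
    fun g hg => g1.th g (In.mono' hg fun z hz => by simpa [md_va] using hz.1)⟩
  · filter_upwards [Ioi_mem_nhds (sub_neg.2 h)] with t ht Y hY
    have ht' : r' ≤ r + t := by linarith [Set.mem_Ioi.1 ht]
    rw [VonNeumannAlgebra.mem_commutant_iff] at hY ⊢
    intro A hA
    have h1 := (G.geo r (r + t) A (by linarith) (by linarith)).1 hA
    rw [add_sub_cancel_left, sub_add_cancel_left] at h1
    have h2 := hY _ (c.hN.mono _ _ (Rc_mono h0.le ht' 0) _ h1)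
    calc A * (c.SK (-t) * Y * c.SK t)
        = c.SK (-t) * c.SK t * A * (c.SK (-t) * Y * c.SK t) := by rw [ug.inv_mul, one_mul]
      _ = c.SK (-t) * (c.SK t * A * c.SK (-t) * Y) * c.SK t := by simp only [mul_assoc]
      _ = c.SK (-t) * Y * c.SK t * A * (c.SK (-t) * c.SK t) := by rw [h2]; simp only [mul_assoc]
      _ = _ := by rw [ug.inv_mul, mul_one]
  · obtain ⟨C, hC⟩ := T.kd.a r (h0.trans h)
    refine (hC _ (P' c.Q.vac : D) (fun Z hZ => ?_) ?_).1
    · rw [ContinuousLinearMap.star_eq_adjoint, ContinuousLinearMap.adjoint_inner_left]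
      exact (hP.2 Z hZ c.Q.vac c.Q.vac).symm
    · have h1 := ((T.gen.sm (P c.Q.vac)).differentiable (by simp)).comp
        (show Differentiable ℝ fun t : ℝ => ((t, 0, 0) : ℝ × ℝ × ℝ) by fun_prop)
      have e : ((fun q => c.gq q ((P c.Q.vac : D) : Completion D)) ∘
          fun t : ℝ => ((t, 0, 0) : ℝ × ℝ × ℝ)) = fun t => Bo c.Q t (P c.Q.vac : D) := by
        funext t
        simp only [Function.comp_apply, Ctx.gq, Pb, zero_smul, G.ut0, G.gb0, mul_one]
      rw [e] at h1
      exact h1 0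

section map

variable {L L' : Ix → V} {y y' : V} (J : Inv L y L' y') (G : GRP c)
include J G

lemma Inv.uu : Ug c.Q 1 L y * Ug c.Q 1 L' y' = 1 := by
  rw [← J.star]
  exact (Unitary.mem_iff.1 (G.uni 1 L y)).2

lemma Inv.uu' (z : Completion D) : Ug c.Q 1 L y (Ug c.Q 1 L' y' z) = z :=
  DFunLike.congr_fun (J.uu G) z

lemma Inv.adj (z w : Completion D) :
    inner ℂ (Ug c.Q 1 L' y' z) w = inner ℂ z (Ug c.Q 1 L y w) := by
  rw [← J.star, ContinuousLinearMap.star_eq_adjoint, ContinuousLinearMap.adjoint_inner_left]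

lemma Inv.cm {O : Set V} {Z : Completion D →L[ℂ] Completion D} (hZ : Z ∈ (c.N O).commutant) :
    Ug c.Q 1 L y * Z * Ug c.Q 1 L' y' ∈ (c.N (sim 1 L y '' O)).commutant := by
  rw [VonNeumannAlgebra.mem_commutant_iff] at hZ ⊢
  intro A hA
  have h1 := (G.alg 1 L' y' _ one_pos J.lor' A).1 hA
  rw [Set.image_image, funext J.li, Set.image_id', J.symm.star] at h1
  have h2 := hZ _ h1
  calc A * (Ug c.Q 1 L y * Z * Ug c.Q 1 L' y')
      = Ug c.Q 1 L y * Ug c.Q 1 L' y' * A * (Ug c.Q 1 L y * Z * Ug c.Q 1 L' y') := by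
        rw [J.uu G, one_mul]
    _ = Ug c.Q 1 L y * (Ug c.Q 1 L' y' * A * Ug c.Q 1 L y * Z) * Ug c.Q 1 L' y' := by
        simp only [mul_assoc]
    _ = Ug c.Q 1 L y * Z * Ug c.Q 1 L' y' * A * (Ug c.Q 1 L y * Ug c.Q 1 L' y') := by
        rw [h2]; simp only [mul_assoc]
    _ = _ := by rw [J.uu G, mul_one]

lemma Inv.th {f : Fn} (hf : GF.IsTest f) :
    Ug c.Q 1 L y (c.Th fun x => f (sim 1 L y x)) = c.Th f := by
  rw [Ctx.Th, G.coe _ _ _ _ one_pos J.lor, G.th _ _ _ _ _ one_pos J.lor hf,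
    c.Q.U_vac _ _ _ one_pos J.lor, Ctx.Th]

theorem Fr.map {h : V} {R R' : Set V} {S : ℝ → Completion D →L[ℂ] Completion D} {κ : Fn → Fn}
    (F : Fr c h R R' S κ) : Fr c (sim 1 L 0 h) (sim 1 L y '' R) (sim 1 L y '' R')
      (fun t => Ug c.Q 1 L y * S t * star (Ug c.Q 1 L y))
      fun g x => κ (fun z => g (sim 1 L y z)) (sim 1 L' y' x) := by
  have hin : ∀ g, In (sim 1 L y '' R) g → In R fun z => g (sim 1 L y z) := fun g hg => by
    have := J.in_comp hg
    rwa [Set.preimage_image_eq _ (Function.LeftInverse.injective J.li)] at this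
  have hk : ∀ g, In (sim 1 L y '' R) g →
      In (sim 1 L y '' R) fun x => κ (fun z => g (sim 1 L y z)) (sim 1 L' y' x) := fun g hg => by
    rw [J.img]
    exact J.symm.in_comp (F.kap _ (hin g hg)).1
  refine ⟨F.ug.cj (G.uni 1 L y), fun t => ?_, ?_, fun P P' hP => ?_, fun g hg => ⟨hk g hg, ?_⟩,
    fun g hg => ?_⟩
  · simp only [J.star, ContinuousLinearMap.mul_apply, G.vac, F.vac]
  · filter_upwards [F.geo] with t ht Y hY
    have h1 := J.symm.cm G hY
    rw [Set.image_image, funext J.li, Set.image_id'] at h1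
    have h2 := J.cm G (ht _ h1)
    simpa only [J.star, mul_assoc] using h2
  · have h1 : T.Afs (c.N R) (fun v => c.Q.U 1 L' y' (P (c.Q.U 1 L y v)))
        fun v => c.Q.U 1 L' y' (P' (c.Q.U 1 L y v)) := by
      refine ⟨fun v w => ?_, fun Y hY v w => ?_⟩
      · rw [← Completion.inner_coe _ w, ← Completion.inner_coe v, ← G.coe _ _ _ _ one_pos J.lor',
          ← G.coe _ _ _ _ one_pos J.lor', J.adj G, ← J.symm.adj G, G.coe _ _ _ _ one_pos J.lor,
          G.coe _ _ _ _ one_pos J.lor, Completion.inner_coe, Completion.inner_coe, hP.1]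
      · have := hP.2 _ (J.cm G hY) (c.Q.U 1 L y v) (c.Q.U 1 L y w)
        simp only [ContinuousLinearMap.mul_apply] at this
        rw [← G.coe _ _ _ v one_pos J.lor, J.symm.uu' G, ← G.coe _ _ _ w one_pos J.lor,
          Grp.ug_inner one_pos J.lor] at this
        rw [← G.coe _ _ _ _ one_pos J.lor', ← G.coe _ _ _ _ one_pos J.lor', J.adj G, this]
    have h2 := F.dom _ _ h1
    simp only [c.Q.U_vac _ _ _ one_pos J.lor] at h2
    rw [← G.coe _ _ _ _ one_pos J.lor'] at h2
    have h3 := h2.map (W' := fun t => Ug c.Q 1 L y * S t * star (Ug c.Q 1 L y)) (Ug c.Q 1 L y)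
      fun t => by simp only [J.star, ContinuousLinearMap.mul_apply, J.symm.uu' G]
    rw [J.uu' G] at h3
    exact h3.1
  · funext x
    exact congrFun (F.kap _ (hin g hg)).2 _
  · have h1 := (F.th _ (hin g hg)).map (W' := fun t => Ug c.Q 1 L y * S t * star (Ug c.Q 1 L y))
      (Ug c.Q 1 L y) fun t => by
        simp only [J.star, ContinuousLinearMap.mul_apply, J.symm.uu' G]
    have h2 := J.th G (hk g hg).1
    simp only [J.li] at h2
    have h3 := G.pot 1 L y _ one_pos J.lor (Grp.test_dv (sim 1 L 0 h) hg.1)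
    rw [← dv_sim hg.1 J.lor] at h3
    rw [J.th G hg.1, map_smul, map_sub, map_smul, h2, h3] at h1
    simpa using h1

end map

/-- the null vectors `a(w)` -/
def aw (w : R2) : V := pt 1 (d2 w w / 2) w

lemma md_aw (w : R2) (z : V) : mdot (aw w) z = be z + d2 w w / 2 * al z - d2 w (tx z) := by
  simp [aw, mdot_null]

lemma null_aw (w : R2) : IsNull (aw w) := by
  refine ⟨by rw [md_aw]; simp [aw], ?_⟩
  rw [time_eq (aw w)]
  simp only [aw, al_pt, be_pt]
  linarith [d2_nonneg w]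

lemma aw_vb (w : R2) : mdot (aw w) vb = 1 := by simp [md_aw]

/-- the cut cones -/
def Rw (w : R2) (y : V) (r : ℝ) : Set V := {z | z - y ∈ HM.Rg (aw w) vb r}

theorem ex_fr (T : T3 c) (g1 : G1 c) (w : R2) (y : V) {r r' : ℝ} (h0 : 0 < r') (h : r' < r) :
    ∃ S κ, Fr c (aw w) (Rw w y r) (Rw w y r') S κ := by
  set L := H746.nrt vb (tv ((1 / 2 : ℝ) • w)) with hL
  have hl : IsLor L := H746.isLor_nrt null_vb (by simp [md_vb])
  obtain ⟨L', y', J⟩ := ex_inv hl y
  have e1 : sim 1 L 0 va = aw w := by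
    rw [hL, H746.sim_nrt]
    refine null_ext ?_ ?_ ?_ <;> simp [aw, mdot_null, d2_smul, d2_smul_l, smul_smul]
    ring
  have e2 : sim 1 L 0 vb = vb := H746.nrt_fix null_vb (by simp [md_vb])
  have e3 : ∀ r, sim 1 L y '' Rc r 0 = Rw w y r := by
    intro r
    have h1 := HM.Rg_img (b := vb) (c := r) one_pos one_pos hl (e1.trans (one_smul ℝ _).symm)
    rw [e2, one_smul, div_one, one_mul] at h1
    ext z
    simp only [Rw, Rc, sub_zero, Set.mem_setOf_eq, ← h1, Set.mem_image, Set.setOf_mem_eq]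
    refine exists_congr fun x => and_congr_right fun _ => ?_
    rw [HM.sim_at, eq_sub_iff_add_eq]
  have := (fr_std T g1 h0 h).map J T.grp
  rw [e1, e3, e3] at this
  exact ⟨_, _, this⟩

end Vale.Agent.P352X.G2

end
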